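import Vale.Agent.P257.H702.Statement
import Mathlib.NumberTheory.Padics.PadicIntegers
import Mathlib.RingTheory.Finiteness.Defs

/-! # P261: finitely generated `p`-adic groups; finite spectra -/

namespace Vale.Agent.N261

open Vale.Agent.P251.St Vale.Agent.P251.St.SHCat Vale.Agent.P257.St

/-- The abelian group `A` has exactly one structure of a `ℤ_[p]`-module, and this module is
finitely generated. -/
def FinGen (p : ℕ) [Fact p.Prime] (A : Type) [AddCommGroup A] : Prop :=
  ∃ m : Module ℤ_[p] A, (∀ m' : Module ℤ_[p] A, m' = m) ∧ @Module.Finite ℤ_[p] A _ _ m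

/-- `X` is a finite spectrum, a finite `p`-local spectrum, or the `p`-completion (the localization
with respect to the Moore spectrum `M`) of a finite spectrum. -/
def FinType {T : SHCat} (p : ℕ) (X : T.C) : Prop :=
  FinSp X ∨ FinPLocal p X ∨ ∃ (F M : T.C) (a : Hom T.one M) (b : Hom M (sus T.one)) (c : Hom F X),
    FinSp F ∧ Dist (zmul p (ident T.one)) a b ∧ IsLoc M c

/-- The rational homotopy of `X` vanishes: all its homotopy groups are torsion groups. -/
def Torsion {T : SHCat} (X : T.C) : Prop :=
  ∀ (t : ℤ) (x : Hom (sphere T t) X), ∃ m : ℤ, m ≠ 0 ∧ zmul m x = 0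

/-- The thick subcategory generated by `G`: the smallest class of objects which contains `G` and
is closed under cofibres, fibres and retracts. -/
inductive Thick {T : SHCat} (G : T.C) : T.C → Prop
  | base : Thick G G
  | cofibre {X Y Z : T.C} {f : Hom X Y} {g : Hom Y Z} {h : Hom Z (sus X)} :
      Dist f g h → Thick G X → Thick G Y → Thick G Z
  | fibre {X Y Z : T.C} {f : Hom X Y} {g : Hom Y Z} {h : Hom Z (sus X)} :
      Dist f g h → Thick G Y → Thick G Z → Thick G X
  | retract {X Y : T.C} (i : Hom X Y) (r : Hom Y X) : comp i r = ident X → Thick G Y → Thick G X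

end Vale.Agent.N261
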