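import Vale.Agent.N261.Near
import Vale.Agent.P261Z.Top.All
import Vale.Agent.P251.Z.FinalA
import Vale.Agent.P251.St.Result
import Vale.Agent.P261Z.T3.ExAll
import Vale.Agent.P251CX.Top

/-! # P261: finite type in the thick subcategory of the `K(n)`-local sphere -/

open CategoryTheory MonoidalCategory Limits Pretriangulated

namespace Vale.Agent.N261

open Vale.Agent.P251 Vale.Agent.P251.S Vale.Agent.P261Z Vale.Agent.P251.St.SHCat

variable {T : St.SHCat} {S : St.Susp T} {p n : ℕ} [hp : Fact p.Prime] {K : T.C}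

theorem underMoore (hn : 1 ≤ n) (hK : P261Z.St.IsK S p n K) : UnderMoore p K := by
  intro C a b hC W hW
  have := locallySmall_self.{0} T.C
  obtain ⟨D, hD, h1, -⟩ := T3.exists_mu_full S.toSpaceFunctor (M.lineIso S.toSpaceFunctor)
  obtain ⟨Dk⟩ := exists_kosData D.P (p : ℤ) n (D.vs p)
  exact (T3.isK_acyclic_iff hD (h1 p hp.out) hn hK Dk W).2 (Z.acyclic_kos_of_moore Dk hn hC hW)

theorem main (hn : 1 ≤ n) (hK : P261Z.St.IsK S p n K) (G : T.C) (e : Hom T.one G)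
    (he : St.IsLoc K e) :
    (∀ t : ℤ, FinGen p (Hom (St.sphere T t) G)) ∧
    (∀ Y, Thick G Y → (∀ t : ℤ, FinGen p (Hom (St.sphere T t) Y)) ∧
      ∀ Y', Thick G Y' → FinGen p (Hom Y' Y)) ∧
    ∀ (X Y : T.C) (f : Hom X Y), FinType p X → St.IsLoc K f →
      Thick G Y ∧ (Torsion X → ∀ t : ℤ, Finite (Hom (St.sphere T t) Y)) := by
  have := locallySmall_self.{0} T.C
  obtain ⟨L⟩ := Z.nonempty_locFunctor' K
  have h := _root_.P261.Top.ftAll hn T S K hK G e he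
  exact ⟨h, all_of L (underMoore hn hK) he h⟩

open Vale.Agent.P251.St Vale.Agent.P261Z.St in
theorem final :
    (∃ (T : SHCat) (S : Susp T), Nonempty (Vale.Agent.P251CX.IsSH T S.toSuspData)) ∧
    ∀ (T : SHCat) (S : Susp T),
    (∀ E X : T.C, ∃ (Y : T.C) (f : Hom X Y), St.IsLoc E f) ∧
    ∀ (p n : ℕ) [Fact p.Prime], 1 ≤ n → (∃ K : T.C, IsK S p n K) ∧
      ∀ K : T.C, IsK S p n K → ∀ (G : T.C) (g : Hom T.one G), St.IsLoc K g →
        (∀ t : ℤ, FinGen p (Hom (sphere T t) G)) ∧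
        (∀ Y : T.C, Thick G Y → (∀ t : ℤ, FinGen p (Hom (sphere T t) Y)) ∧
          ∀ Y' : T.C, Thick G Y' → FinGen p (Hom Y' Y)) ∧
        ∀ (X Y : T.C) (f : Hom X Y), FinType p X → St.IsLoc K f →
          Thick G Y ∧ (Torsion X → ∀ t : ℤ, Finite (Hom (sphere T t) Y)) :=
  ⟨Vale.Agent.P251CX.exists_isSH, fun T S => ⟨exists_isLoc T, fun _ _ hp hn =>
    ⟨Vale.Agent.P261Z.T3.exists_isK S hp.out hn, fun _ hK => main hn hK⟩⟩⟩

end Vale.Agent.N261
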