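import Vale.Agent.N261.Thick
import Vale.Agent.P251.St.ToChrom

/-! # P261: localizations of finite spectra lie in the thick subcategory of the local sphere -/

open CategoryTheory MonoidalCategory Limits Pretriangulated

namespace Vale.Agent.N261

open Vale.Agent.P251 Vale.Agent.P251.S Vale.Agent.P261Z.T1 Vale.Agent.P257.St

variable {T : St.SHCat} {p : ℕ} [hp : Fact p.Prime] {K : T.C}

/-- acyclic for a Moore spectrum implies acyclic for `K` -/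
def UnderMoore (p : ℕ) (K : T.C) : Prop :=
  ∀ (M : T.C) (a : 𝟙_ T.C ⟶ M) (b : M ⟶ (𝟙_ T.C)⟦(1 : ℤ)⟧),
    Triangle.mk ((p : ℤ) • 𝟙 _) a b ∈ distTriang T.C → ∀ W, Acyclic M W → Acyclic K W

theorem near_of_finType (L : LocFunctor K) (hK : UnderMoore p K) {X : T.C} (hX : FinType p X) :
    Near L X := by
  rcases hX with hX | ⟨F, Y, l, i, r, hF, hl, hr⟩ | ⟨F, M, a, b, c, hF, hM, hc⟩
  · exact ⟨X, 𝟙 X, 𝟙 _, hX, by simp⟩
  · obtain ⟨M, a, b, hM⟩ := distinguished_cocone_triangle ((p : ℤ) • 𝟙 (𝟙_ T.C))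
    refine near_of L hF l i r hr fun Z hZ => ?_
    have h1 := hl.2 Z (pLocal_of (pcompl hM (hK M a b hM) hZ Z))
    refine ⟨fun x y hxy => ?_, fun x => (h1 x).exists⟩
    exact (h1 (l ≫ y)).unique hxy rfl
  · refine near_of L hF c (𝟙 X) (𝟙 X) (Category.comp_id _) fun Z hZ => ?_
    obtain ⟨W, g, d, hΔ⟩ := distinguished_cocone_triangle c
    exact hZ.precomp_bijective c ((acyclic₃_iff_isIso₁ hΔ).1
      (hK M a b hM _ ((acyclic₃_iff_isIso₁ hΔ).2 ((St.isLoc_iff M c).1 hc).1)))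

theorem all_of (L : LocFunctor K) (hK : UnderMoore p K) {G : T.C} {e : 𝟙_ T.C ⟶ G}
    (he : St.IsLoc K e) (h : ∀ t : ℤ, FG p ((𝟙_ T.C)⟦t⟧ ⟶ G)) :
    (∀ Y, Thick G Y → (∀ t : ℤ, FG p ((𝟙_ T.C)⟦t⟧ ⟶ Y)) ∧ ∀ Y', Thick G Y' → FG p (Y' ⟶ Y)) ∧
      ∀ (X Y : T.C) (f : X ⟶ Y), FinType p X → St.IsLoc K f →
        Thick G Y ∧ (Torsion X → ∀ t : ℤ, Finite ((𝟙_ T.C)⟦t⟧ ⟶ Y)) := by
  obtain ⟨M, a, b, hM⟩ := distinguished_cocone_triangle ((p : ℤ) • 𝟙 (𝟙_ T.C))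
  have he' := (St.isLoc_iff K e).1 he
  have h1 := fun Y => fg_thick hM (hK M a b hM) he' h (Y := Y)
  refine ⟨h1, fun X Y f hX hf => ?_⟩
  obtain ⟨e0⟩ := loc_iso L (fun _ => Iff.rfl) he'
  obtain ⟨e1⟩ := loc_iso L (fun _ => Iff.rfl) ((St.isLoc_iff K f).1 hf)
  obtain ⟨F, u, j, hF, hj⟩ := near_of_finType L hK hX
  have h2 : Thick G Y :=
    (Thick.retract j (L.L.map u) hj (thick_fin L.L (Thick.base.of_iso e0.symm) hF)).of_iso e1
  refine ⟨h2, fun hT t => ?_⟩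
  obtain ⟨m, hm, h3⟩ := torsion_src hT hF u
  have h4 : m • 𝟙 (L.L.obj X) = 0 := by
    rw [← hj, ← Preadditive.comp_zsmul, ← Functor.map_zsmul, h3, Functor.map_zero, comp_zero]
  refine finite_of_zsmul ((h1 Y h2).1 t) hm fun x => ?_
  have h5 : m • x = x ≫ e1.inv ≫ (m • 𝟙 (L.L.obj X)) ≫ e1.hom := by
    simp only [Preadditive.comp_zsmul, Preadditive.zsmul_comp, Category.id_comp, Iso.inv_hom_id,
      Category.comp_id]
  rw [h5, h4, zero_comp, comp_zero, comp_zero]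

/-- The sphere spectrum is a finite spectrum. -/
theorem finSp_one : FinSp (𝟙_ T.C) := by
  obtain ⟨Z, hZ⟩ := HasZeroObject.zero (C := T.C)
  let e := (shiftFunctorCompIsoId T.C (-1 : ℤ) 1 (by ring)).app (𝟙_ T.C)
  refine FinSp.cell (X := Z) (k := -1) (f := 0) (g := 0) (h := e.inv) ?_
    (FinSp.zero (hZ.eq_of_src _ _))
  exact (Triangle.distinguished_iff_of_isZero₂ _ hZ).2 (inferInstanceAs (IsIso e.inv))

end Vale.Agent.N261
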