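import Vale.Agent.N261.Defs
import Vale.Agent.P261Z.T1.Last
import Mathlib.NumberTheory.Padics.RingHoms

/-! # P261: from the sphere to all finite spectra -/

open CategoryTheory MonoidalCategory Limits Pretriangulated

namespace Vale.Agent.N261

open Vale.Agent.P251 Vale.Agent.P251.S Vale.Agent.P261Z.T1 Vale.Agent.P257.St

section alg

variable {p : ℕ} [hp : Fact p.Prime]

theorem finite_of_pow {M : Type*} [AddCommGroup M] [Module ℤ_[p] M] [Module.Finite ℤ_[p] M]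
    (e : ℕ) (h : ∀ x : M, (p : ℤ_[p]) ^ e • x = 0) : Finite M := by
  obtain ⟨k, g, hg⟩ := Module.Finite.exists_fin (R := ℤ_[p]) (M := M)
  refine Finite.of_surjective (fun c : Fin k → Fin (p ^ e) => ∑ i, ((c i : ℕ) : ℤ_[p]) • g i)
    fun x => ?_
  have hx : x ∈ Submodule.span ℤ_[p] (Set.range g) := by rw [hg]; trivial
  obtain ⟨c, rfl⟩ := (Submodule.mem_span_range_iff_exists_fun _).1 hx
  refine ⟨fun i => ⟨(c i).appr e, PadicInt.appr_lt _ _⟩, Finset.sum_congr rfl fun i _ => ?_⟩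
  obtain ⟨d, hd⟩ := Ideal.mem_span_singleton'.1 (PadicInt.appr_spec e (c i))
  have h1 : (c i - ((c i).appr e : ℕ)) • g i = 0 := by rw [← hd, mul_smul, h, smul_zero]
  rw [sub_smul, sub_eq_zero] at h1
  exact h1.symm

theorem finite_of_zsmul {M : Type*} [AddCommGroup M] (hM : FG p M) {m : ℤ} (hm : m ≠ 0)
    (h : ∀ x : M, m • x = 0) : Finite M := by
  obtain ⟨_, -, _⟩ := hM
  have h1 : (m : ℤ_[p]) ≠ 0 := Int.cast_ne_zero.2 hm
  refine finite_of_pow (p := p) (m : ℤ_[p]).valuation fun x => ?_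
  have h2 := h x
  rw [← Int.cast_smul_eq_zsmul ℤ_[p], PadicInt.unitCoeff_spec h1, mul_smul] at h2
  exact (smul_eq_zero_iff_eq (PadicInt.unitCoeff h1)).1 h2

theorem finite_tors {M : Type*} [AddCommGroup M] (hM : FG p M) :
    {x : M | (p : ℤ) • x = 0}.Finite := by
  obtain ⟨_, -, _⟩ := hM
  have h1 : Finite (Submodule.torsionBy ℤ_[p] M (p : ℤ_[p])) :=
    finite_of_pow (p := p) 1 fun x => by rw [pow_one]; exact Subtype.ext x.2
  refine (Set.toFinite (Submodule.torsionBy ℤ_[p] M (p : ℤ_[p]) : Set M)).subset fun x hx => ?_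
  change (p : ℤ_[p]) • x = 0
  rw [Nat.cast_smul_eq_nsmul, ← natCast_zsmul]
  exact hx

theorem finModP_of_fg {M : Type*} [AddCommGroup M] (hM : FG p M) : FinModP p M := by
  obtain ⟨_, -, _⟩ := hM
  let N : Submodule ℤ_[p] M := LinearMap.range ((p : ℤ_[p]) • LinearMap.id)
  have h1 : Finite (M ⧸ N) := finite_of_pow (p := p) 1 fun x => by
    obtain ⟨y, rfl⟩ := N.mkQ_surjective x
    rw [pow_one, ← map_smul]
    exact (Submodule.Quotient.mk_eq_zero N).2 ⟨y, rfl⟩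
  choose s hs using N.mkQ_surjective
  refine ⟨Set.range s, Set.finite_range s, fun x => ⟨s (N.mkQ x), ⟨_, rfl⟩, ?_⟩⟩
  obtain ⟨y, hy⟩ : x - s (N.mkQ x) ∈ N := by
    rw [← Submodule.Quotient.mk_eq_zero]
    change N.mkQ _ = 0
    rw [map_sub, hs, sub_self]
  refine ⟨y, ?_⟩
  rw [natCast_zsmul, ← Nat.cast_smul_eq_nsmul ℤ_[p]]
  exact eq_add_of_sub_eq' hy.symm

omit hp in
theorem finite_of_exact {A B C : Type*} [AddCommGroup A] [AddCommGroup B] [AddCommGroup C]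
    (φ : A →+ B) (ψ : B →+ C) (h : ∀ b, ψ b = 0 → ∃ a, b = φ a) (h1 : (Set.range φ).Finite)
    (h2 : (Set.range ψ).Finite) : Finite B := by
  rw [AddMonoidHom.finite_iff_finite_ker_range ψ]
  refine ⟨h1.subset fun b hb => ?_, h2⟩
  obtain ⟨a, ha⟩ := h b hb
  exact ⟨a, ha.symm⟩

end alg

variable {T : St.SHCat}

theorem homShift (t k : ℤ) (Y : T.C) :
    ∃ φ : ((𝟙_ T.C)⟦t - k⟧ ⟶ Y) →+ ((𝟙_ T.C)⟦t⟧ ⟶ Y⟦k⟧), Function.Bijective φ := by
  let e := (shiftFunctorAdd' T.C (t - k) k t (by ring)).app (𝟙_ T.C)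
  refine ⟨(Preadditive.leftComp _ e.hom).comp (shiftFunctor T.C k).mapAddHom, ?_⟩
  refine Function.Bijective.comp (g := fun f => e.hom ≫ f) ?_
    ⟨(shiftFunctor T.C k).map_injective, (shiftFunctor T.C k).map_surjective⟩
  exact ⟨fun a b h => (cancel_epi e.hom).1 h, fun f => ⟨e.inv ≫ f, e.hom_inv_id_assoc f⟩⟩

theorem finite_iso {A Y Y' : T.C} (e : Y ≅ Y') (h : Finite (A ⟶ Y)) : Finite (A ⟶ Y') :=
  Finite.of_surjective (fun f : A ⟶ Y => f ≫ e.hom) fun f => ⟨f ≫ e.inv, by simp⟩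

theorem finite_iso' {A A' Y : T.C} (e : A ≅ A') (h : Finite (A' ⟶ Y)) : Finite (A ⟶ Y) :=
  Finite.of_surjective (fun f : A' ⟶ Y => e.hom ≫ f) fun f => ⟨e.inv ≫ f, by simp⟩

theorem finite_shift {Y : T.C} (h : ∀ t : ℤ, Finite ((𝟙_ T.C)⟦t⟧ ⟶ Y)) (k t : ℤ) :
    Finite ((𝟙_ T.C)⟦t⟧ ⟶ Y⟦k⟧) := by
  obtain ⟨φ, hφ⟩ := homShift t k Y
  have := h (t - k)
  exact Finite.of_surjective φ hφ.2

theorem finite_obj (F : T.C ⥤ T.C) [F.CommShift ℤ] [F.IsTriangulated] {G : T.C}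
    (h : ∀ t : ℤ, Finite ((𝟙_ T.C)⟦t⟧ ⟶ F.obj G)) {Y : T.C} (hY : Thick G Y) :
    ∀ t : ℤ, Finite ((𝟙_ T.C)⟦t⟧ ⟶ F.obj Y) := by
  induction hY with
  | base => exact h
  | @cofibre X Y Z f g d hd _ _ ih1 ih2 =>
    intro t
    have h1 := F.map_distinguished _ hd
    have h3 := finite_shift ih1 1 t
    have h4 := ih2 t
    exact finite_of_exact (Preadditive.rightComp _ (F.map g))
      (Preadditive.rightComp _ (F.map d ≫ (F.commShiftIso (1 : ℤ)).hom.app _))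
      (fun b hb => Triangle.coyoneda_exact₃ _ h1 b hb) (Set.finite_range _)
      (@Set.toFinite _ _ (@Subtype.finite _ h3 _))
  | @fibre X Y Z f g d hd _ _ ih1 ih2 =>
    intro t
    have h1 := inv_rot_of_distTriang _ (F.map_distinguished _ hd)
    have h3 := finite_shift ih2 (-1) t
    have h4 := ih1 t
    exact finite_of_exact (A := (𝟙_ T.C)⟦t⟧ ⟶ (F.obj Z)⟦(-1 : ℤ)⟧)
      (Preadditive.rightComp _ (F.mapTriangle.obj (Triangle.mk f g d)).invRotate.mor₁)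
      (Preadditive.rightComp _ (F.map f))
      (fun b hb => Triangle.coyoneda_exact₂ _ h1 b hb) (Set.finite_range _) (Set.toFinite _)
  | @retract X Y i r hr _ ih =>
    intro t
    have h1 := ih t
    refine Finite.of_surjective (fun x : (𝟙_ T.C)⟦t⟧ ⟶ F.obj Y => x ≫ F.map r) fun x =>
      ⟨x ≫ F.map i, ?_⟩
    have h2 : i ≫ r = 𝟙 X := hr
    simp only [Category.assoc, ← F.map_comp, h2, F.map_id, Category.comp_id]

theorem thick_local {K G Y : T.C} (hG : IsLocal K G) (hY : Thick G Y) : IsLocal K Y := by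
  induction hY with
  | base => exact hG
  | cofibre hd _ _ ih1 ih2 => exact IsLocal.ext₃ hd ih1 ih2
  | fibre hd _ _ ih1 ih2 => exact IsLocal.ext₁ hd ih1 ih2
  | retract i r hr _ ih => exact ih.retract i r hr

theorem finite_src {K G Y : T.C} {e : 𝟙_ T.C ⟶ G} (he : IsIso (K ◁ e)) (hY : Thick G Y) :
    ∀ W : T.C, IsLocal K W → (∀ t : ℤ, Finite ((𝟙_ T.C)⟦t⟧ ⟶ W)) → Finite (Y ⟶ W) := by
  induction hY with
  | base =>
    intro W hW h
    have h1 := finite_iso' ((shiftFunctorZero T.C ℤ).app (𝟙_ T.C)).symm (h 0)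
    exact @Finite.of_injective _ _ h1 _ (hW.precomp_bijective e he).1
  | @cofibre X Y Z f g d hd _ _ ih1 ih2 =>
    intro W hW h
    have h1 := ih1 _ (hW.shift (-1)) (finite_shift h (-1))
    have h2 := ih2 W hW h
    have h3 : Finite (X⟦(1 : ℤ)⟧ ⟶ W) :=
      @Finite.of_equiv _ _ h1 ((shiftEquiv T.C (1 : ℤ)).toAdjunction.homEquiv X W).symm
    exact finite_of_exact (Preadditive.leftComp _ d) (Preadditive.leftComp _ g)
      (fun b hb => Triangle.yoneda_exact₃ _ hd b hb) (Set.finite_range _) (Set.toFinite _)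
  | @fibre X Y Z f g d hd _ _ ih1 ih2 =>
    intro W hW h
    have h1 := ih2 _ (hW.shift 1) (finite_shift h 1)
    have h2 := ih1 W hW h
    have h3 : Finite (Z⟦(-1 : ℤ)⟧ ⟶ W) :=
      @Finite.of_equiv _ _ h1 ((shiftEquiv T.C (1 : ℤ)).symm.toAdjunction.homEquiv Z W).symm
    exact finite_of_exact (C := Z⟦(-1 : ℤ)⟧ ⟶ W) (Preadditive.leftComp _ f)
      (Preadditive.leftComp _ (Triangle.mk f g d).invRotate.mor₁)
      (fun b hb => Triangle.yoneda_exact₂ _ (inv_rot_of_distTriang _ hd) b hb)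
      (Set.finite_range _) (Set.toFinite _)
  | @retract X Y i r hr _ ih =>
    intro W hW h
    have h1 := ih W hW h
    refine Finite.of_surjective (fun x : Y ⟶ W => i ≫ x) fun x => ⟨r ≫ x, ?_⟩
    have h2 : i ≫ r = 𝟙 X := hr
    simp only [← Category.assoc, h2, Category.id_comp]

theorem Thick.of_iso {G Y Y' : T.C} (e : Y ≅ Y') (h : Thick G Y) : Thick G Y' :=
  Thick.retract e.inv e.hom e.inv_hom_id h

theorem Thick.of_isZero (G : T.C) {Y : T.C} (h : IsZero Y) : Thick G Y :=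
  Thick.retract 0 0 (h.eq_of_src _ _) Thick.base

theorem Thick.shift {G Y : T.C} (h : Thick G Y) (k : ℤ) : Thick G (Y⟦k⟧) := by
  induction k using Int.induction_on with
  | zero => exact h.of_iso ((shiftFunctorZero T.C ℤ).app Y).symm
  | succ k ih =>
    exact (Thick.cofibre (contractible_distinguished₂ _) ih (Thick.of_isZero G (isZero_zero _))).of_iso
      ((shiftFunctorAdd T.C (k : ℤ) 1).app Y).symm
  | pred k ih =>
    exact Thick.fibre (contractible_distinguished₂ _) (Thick.of_isZero G (isZero_zero _))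
      (ih.of_iso ((shiftFunctorAdd' T.C (-(k : ℤ) - 1) 1 (-k) (by ring)).app Y))

theorem thick_fin (F : T.C ⥤ T.C) [F.CommShift ℤ] [F.IsTriangulated] {G : T.C}
    (h : Thick G (F.obj (𝟙_ T.C))) {A : T.C} (hA : FinSp A) : Thick G (F.obj A) := by
  induction hA with
  | zero h0 => exact Thick.of_isZero G (F.map_isZero ((IsZero.iff_id_eq_zero _).2 h0))
  | @cell X Y k f g d hd _ ih =>
    exact Thick.cofibre (F.map_distinguished _ hd)
      ((h.shift k).of_iso ((F.commShiftIso k).app _).symm) ih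

theorem torsion_src {Z : T.C} (h : Torsion Z) {A : T.C} (hA : FinSp A) (u : A ⟶ Z) :
    ∃ m : ℤ, m ≠ 0 ∧ m • u = 0 := by
  induction hA with
  | zero h0 => exact ⟨1, one_ne_zero, ((IsZero.iff_id_eq_zero _).2 h0).eq_of_src _ _⟩
  | @cell X Y k f g d hd _ ih =>
    obtain ⟨m, hm, h1⟩ := ih (g ≫ u)
    obtain ⟨v, hv⟩ := Triangle.yoneda_exact₃ _ hd (m • u) (by
      change g ≫ (m • u) = 0
      rw [Preadditive.comp_zsmul, h1])
    change ((𝟙_ T.C)⟦k⟧)⟦(1 : ℤ)⟧ ⟶ Z at v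
    replace hv : m • u = d ≫ v := hv
    let e := (shiftFunctorAdd T.C k 1).app (𝟙_ T.C)
    obtain ⟨m', hm', h2⟩ := h (k + 1) (e.hom ≫ v)
    have h3 : m' • v = 0 := by
      rw [← cancel_epi e.hom, Preadditive.comp_zsmul, comp_zero]
      exact h2
    refine ⟨m' * m, mul_ne_zero hm' hm, ?_⟩
    rw [mul_smul, hv, ← Preadditive.comp_zsmul, h3, comp_zero]

variable {p : ℕ} [hp : Fact p.Prime] {K : T.C} (L : LocFunctor K)

omit hp in
theorem moore_tensor {M : T.C} {a : 𝟙_ T.C ⟶ M} {b : M ⟶ (𝟙_ T.C)⟦(1 : ℤ)⟧}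
    (hM : Triangle.mk ((p : ℤ) • 𝟙 _) a b ∈ distTriang T.C) (Y : T.C) :
    ∃ (i : Y ⟶ M ⊗ Y) (δ : M ⊗ Y ⟶ Y⟦(1 : ℤ)⟧),
      Triangle.mk ((p : ℤ) • 𝟙 Y) i δ ∈ distTriang T.C := by
  let G := tensorRight Y
  refine ⟨(λ_ Y).inv ≫ G.map a,
    (G.map b ≫ (G.commShiftIso (1 : ℤ)).hom.app _) ≫ (λ_ Y).hom⟦(1 : ℤ)⟧', ?_⟩
  refine isomorphic_distinguished _ (G.map_distinguished _ hM) _
    (Triangle.isoMk _ _ (λ_ Y).symm (λ_ Y).symm (Iso.refl _) ?_ ?_ ?_)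
  · change ((p : ℤ) • 𝟙 Y) ≫ (λ_ Y).inv = (λ_ Y).inv ≫ G.map ((p : ℤ) • 𝟙 _)
    rw [Functor.map_zsmul, CategoryTheory.Functor.map_id, Preadditive.zsmul_comp,
      Preadditive.comp_zsmul, Category.id_comp]
    exact congrArg _ (Category.comp_id _).symm
  · exact Category.comp_id _
  · have h1 : ∀ {A B C : T.C} (e : B ≅ C) (x : A ⟶ B⟦(1 : ℤ)⟧),
        (x ≫ e.hom⟦(1 : ℤ)⟧') ≫ e.inv⟦(1 : ℤ)⟧' = 𝟙 A ≫ x := fun e x => by
      rw [Category.assoc, ← Functor.map_comp, Iso.hom_inv_id, CategoryTheory.Functor.map_id,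
        Category.id_comp, Category.comp_id]
    exact h1 (λ_ Y) _

theorem finite_moore {Y C : T.C} {i : Y ⟶ C} {δ : C ⟶ Y⟦(1 : ℤ)⟧}
    (hC : Triangle.mk ((p : ℤ) • 𝟙 Y) i δ ∈ distTriang T.C)
    (h : ∀ t : ℤ, FG p ((𝟙_ T.C)⟦t⟧ ⟶ Y)) (t : ℤ) : Finite ((𝟙_ T.C)⟦t⟧ ⟶ C) := by
  refine finite_of_exact (Preadditive.rightComp _ i) (Preadditive.rightComp _ δ)
    (fun b hb => Triangle.coyoneda_exact₃ _ hC b hb) ?_ ?_
  · obtain ⟨R, hR, h1⟩ := finModP_of_fg (h t)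
    refine (hR.image (Preadditive.rightComp _ i)).subset ?_
    rintro _ ⟨x, rfl⟩
    obtain ⟨a, ha, y, rfl⟩ := h1 x
    refine ⟨a, ha, ?_⟩
    have h2 : ((p : ℤ) • 𝟙 Y) ≫ i = 0 := comp_distTriang_mor_zero₁₂ _ hC
    rw [Preadditive.zsmul_comp, Category.id_comp] at h2
    rw [map_add, map_zsmul]
    change _ = _ + (p : ℤ) • (y ≫ i)
    rw [← Preadditive.comp_zsmul, h2, comp_zero, add_zero]
  · obtain ⟨φ, hφ⟩ := homShift t 1 Y
    refine ((finite_tors (h (t - 1))).image φ).subset ?_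
    rintro _ ⟨x, rfl⟩
    obtain ⟨y, hy⟩ := hφ.2 (x ≫ δ)
    refine ⟨y, hφ.1 ?_, hy⟩
    have h2 : δ ≫ ((p : ℤ) • 𝟙 Y)⟦(1 : ℤ)⟧' = 0 := comp_distTriang_mor_zero₃₁ _ hC
    rw [Functor.map_zsmul, CategoryTheory.Functor.map_id, Preadditive.comp_zsmul,
      Category.comp_id] at h2
    rw [map_zsmul, hy, map_zero, ← Preadditive.comp_zsmul, h2, comp_zero]

omit hp in
theorem pcompl {M : T.C} {a : 𝟙_ T.C ⟶ M} {b : M ⟶ (𝟙_ T.C)⟦(1 : ℤ)⟧}
    (hM : Triangle.mk ((p : ℤ) • 𝟙 _) a b ∈ distTriang T.C)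
    (hMK : ∀ W, Acyclic M W → Acyclic K W) {Y : T.C} (hY : IsLocal K Y) (A : T.C) :
    PCompl p (A ⟶ Y) :=
  pcompl_of_local (sq_smul_cofibre hM) (Z.isLocal_mono hMK hY) A

theorem fg_thick {M : T.C} {a : 𝟙_ T.C ⟶ M} {b : M ⟶ (𝟙_ T.C)⟦(1 : ℤ)⟧}
    (hM : Triangle.mk ((p : ℤ) • 𝟙 _) a b ∈ distTriang T.C)
    (hMK : ∀ W, Acyclic M W → Acyclic K W) {G : T.C} {e : 𝟙_ T.C ⟶ G} (he : Z.IsLoc K e)
    (h : ∀ t : ℤ, FG p ((𝟙_ T.C)⟦t⟧ ⟶ G)) {Y : T.C} (hY : Thick G Y) :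
    (∀ t : ℤ, FG p ((𝟙_ T.C)⟦t⟧ ⟶ Y)) ∧ ∀ Y', Thick G Y' → FG p (Y' ⟶ Y) := by
  obtain ⟨i₀, δ₀, h0⟩ := moore_tensor hM G
  obtain ⟨i, δ, h1⟩ := moore_tensor hM Y
  have h2 : ∀ t : ℤ, Finite ((𝟙_ T.C)⟦t⟧ ⟶ M ⊗ Y) :=
    finite_obj (tensorLeft M) (finite_moore h0 h) hY
  have h3 := thick_local he.2 hY
  refine ⟨fun t => ?_, fun Y' hY' => ?_⟩
  · have := h2 t
    exact fg_of (pcompl hM hMK h3 _) (finModP_of_triangle h1 _)
  · have : Finite (Y' ⟶ M ⊗ Y) := finite_src he.1 hY' _ (IsLocal.ext₃ h1 h3 h3) h2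
    exact fg_of (pcompl hM hMK h3 _) (finModP_of_triangle h1 _)

/-- the localization of `X` is a retract of the localization of a finite spectrum over `X` -/
def Near (X : T.C) : Prop :=
  ∃ (F : T.C) (u : F ⟶ X) (j : L.L.obj X ⟶ L.L.obj F), FinSp F ∧ j ≫ L.L.map u = 𝟙 _

omit hp in
theorem near_of {F Y X : T.C} (hF : FinSp F) (l : F ⟶ Y) (i : X ⟶ Y) (r : Y ⟶ X)
    (hr : i ≫ r = 𝟙 X) (hl : ∀ Z, IsLocal K Z → Function.Bijective fun g : Y ⟶ Z => l ≫ g) :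
    Near L X := by
  obtain ⟨g, hg⟩ := (hl _ (L.isLocal F)).2 (L.unit.app F)
  obtain ⟨j, hj⟩ := ((L.isLocal F).precomp_bijective _ (L.isIso X)).2 (i ≫ g)
  change l ≫ g = L.unit.app F at hg
  change L.unit.app X ≫ j = i ≫ g at hj
  refine ⟨F, l ≫ r, j, hF, ((L.isLocal X).precomp_bijective _ (L.isIso X)).1 ?_⟩
  have h1 : g ≫ L.L.map (l ≫ r) = r ≫ L.unit.app X := by
    apply (hl _ (L.isLocal X)).1
    change l ≫ g ≫ L.L.map (l ≫ r) = l ≫ r ≫ L.unit.app X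
    rw [← Category.assoc, hg, ← Category.assoc]
    exact (L.unit.naturality (l ≫ r)).symm
  change L.unit.app X ≫ j ≫ L.L.map (l ≫ r) = L.unit.app X ≫ 𝟙 _
  rw [← Category.assoc, hj, Category.assoc, h1, ← Category.assoc, hr]
  simp

theorem pLocal_of {Z : T.C} (h : PCompl p (Z ⟶ Z)) : PLocal p Z := by
  intro m hm
  obtain ⟨_⟩ := PA.exists_module h
  have h1 : IsUnit (m : ℤ_[p]) := by
    rw [PadicInt.isUnit_iff]
    exact le_antisymm (PadicInt.norm_le_one _)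
      (not_lt.1 fun h2 => hm ((PadicInt.norm_int_lt_one_iff_dvd m).1 h2))
  obtain ⟨u, hu⟩ := h1
  have h2 : m • ((u⁻¹ : ℤ_[p]ˣ) : ℤ_[p]) • 𝟙 Z = 𝟙 Z := by
    rw [← Int.cast_smul_eq_zsmul ℤ_[p], ← hu, ← mul_smul, Units.mul_inv, one_smul]
  refine ⟨((u⁻¹ : ℤ_[p]ˣ) : ℤ_[p]) • 𝟙 Z, ?_, ?_⟩
  · change (m • 𝟙 Z) ≫ _ = _
    rw [Preadditive.zsmul_comp, Category.id_comp, h2]
  · change _ ≫ (m • 𝟙 Z) = _
    rw [Preadditive.comp_zsmul, Category.comp_id, h2]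

end Vale.Agent.N261
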